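import Vale.Agent.P194.Main

/-- Kaplansky's direct finiteness conjecture is false; it fails over every field of positive
characteristic, for a finitely presented group. -/
theorem Vale.Agent.Results.P194.Counterexample.result :
    (¬ ∀ (K : Type) [Field K] (G : Type) [Group G] (a b : MonoidAlgebra K G),
        a * b = 1 → b * a = 1) ∧
    ∀ (p : ℕ), p.Prime → ∀ (K : Type) [Field K] [CharP K p],
      ∃ (G : Type) (_ : Group G), Group.IsFinitelyPresented G ∧
        ∃ a b : MonoidAlgebra K G, a * b = 1 ∧ b * a ≠ 1 := by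
  refine ⟨fun h => ?_, fun p hp K _ _ => ?_⟩
  · obtain ⟨G, _, -, a, b, h1, h2⟩ := Vale.Agent.P194.main_group 2 (ZMod 2)
    exact h2 (h (ZMod 2) G a b h1)
  · have : Fact p.Prime := ⟨hp⟩
    exact Vale.Agent.P194.main_group p K
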